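import Mathlib
import Vale.Agent.P344.Defs
import Vale.Agent.P344.Final

theorem Vale.Agent.Results.P344.BelowNLogN.result :
    (∀ n : ℕ, ∃ (gates : List Vale.Agent.P344.Gate) (out : Fin n → ℕ),
      gates.length = Vale.Agent.P344.L n ∧ Vale.Agent.P344.Computes n gates out) ∧
    (∃ C : ℝ, ∀ n : ℕ, 2 ≤ n →
      (Vale.Agent.P344.L n : ℝ) ≤ C * n * Real.logb 2 n ^ (1 - 1 / 10 ^ 10 : ℝ)) ∧
    ¬ ∃ c : ℝ, 0 < c ∧ ∀ᶠ n : ℕ in Filter.atTop,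
      c * n * Real.logb 2 n ≤ Vale.Agent.P344.L n :=
  ⟨Vale.Agent.P344.L_spec, Vale.Agent.P344.main_bound, Vale.Agent.P344.not_lower⟩
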